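/- Row 168, Mod LIP: the row sum bound gives the sup-norm Lipschitz bound of the tilted mean. -/
import Crest.Agent.Lib.SRF.Defs

set_option autoImplicit false

namespace Crest.Agent.Lib.SRF

variable {E : Type*}

/-- `d/dh_f tiltMean = tiltCov` for `f ∈ W`, and `tiltCov e e = Var e`, so along the segment from `h` to `h'` the
derivative of `tiltMean` is bounded by `2 Var e r ≤ r / 2`. Mean value theorem on `[0,1]`. If `e ∉ W` the mean is `0`.
Coefficients nonnegative and not all zero on the powerset. -/
theorem tiltMean_lip {c : Finset E → ℝ} {W : Finset E} (hc : ∀ S ∈ W.powerset, 0 ≤ c S)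
    (hpos : 0 < ∑ S ∈ W.powerset, c S) (hrow : RowSumBound c W) (e : E) (h h' : E → ℝ) (r : ℝ)
    (hr : ∀ f ∈ W, |h f - h' f| ≤ r) : |tiltMean c W e h - tiltMean c W e h'| ≤ r / 2 := by sorry

end Crest.Agent.Lib.SRF
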