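/- Row 168, Mod RAY: negative correlation and the row sum bound from stability (nonvanishing on the product of upper half planes). -/
import Crest.Agent.Lib.SRF.Defs

set_option autoImplicit false

namespace Crest.Agent.Lib.SRF

open scoped Classical

variable {E : Type*}

/-- Stability of the multi-affine polynomial with coefficients `c` on subsets of `W`. -/
def Stable (c : Finset E → ℝ) (W : Finset E) : Prop :=
  ∀ z : E → ℂ, (∀ i ∈ W, 0 < (z i).im) → ∑ S ∈ W.powerset, ((c S : ℝ) : ℂ) * ∏ i ∈ S, z i ≠ 0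

/-- Rayleigh: negative correlation under every tilt. Bivariate Moebius argument: fix the other variables at
`exp (h k) + i ε`, write the polynomial as `a + b ζ_e + c ζ_f + d ζ_e ζ_f`; if `a d > b c` at `ε = 0`, then at `ζ_e = i` the zero
`ζ_f = -(a + b i)/(c + d i)` has positive imaginary part, also for small `ε`: contradiction. -/
theorem tiltCov_nonpos {c : Finset E → ℝ} {W : Finset E} (hc : ∀ S ∈ W.powerset, 0 ≤ c S)
    (hpos : 0 < ∑ S ∈ W.powerset, c S) (hst : Stable c W) (h : E → ℝ) {e f : E} (he : e ∈ W) (hf : f ∈ W) (hef : e ≠ f) :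
    tiltCov c W e f h ≤ 0 := by sorry

/-- Monotonicity of the marginal under uniform scaling: `Var e + ∑_{f ≠ e} Cov e f ≥ 0`. Proof in `RayU`: `f(t) = p(t z)`,
`R(t) = (∂_e p)(t z)`; `f + εR ≠ 0` on the upper half plane for `Im ε ≥ 0` so `R/f` has nonpositive imaginary part; partial
fractions with nonnegative residues at the nonpositive roots give `t R/f = ∑ c_j t/(t - ρ_j)`, increasing on `t > 0`. -/
theorem var_add_sum_cov_nonneg {c : Finset E → ℝ} {W : Finset E} (hc : ∀ S ∈ W.powerset, 0 ≤ c S)
    (hpos : 0 < ∑ S ∈ W.powerset, c S) (hst : Stable c W) (h : E → ℝ) {e : E} (he : e ∈ W) :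
    0 ≤ tiltMean c W e h * (1 - tiltMean c W e h) + ∑ f ∈ W.erase e, tiltCov c W e f h := by sorry

theorem rowSumBound_of_stable {c : Finset E → ℝ} {W : Finset E} (hc : ∀ S ∈ W.powerset, 0 ≤ c S)
    (hpos : 0 < ∑ S ∈ W.powerset, c S) (hst : Stable c W) : RowSumBound c W := by
  intro h e he
  have h1 : ∀ f ∈ W.erase e, |tiltCov c W e f h| = - tiltCov c W e f h := fun f hf => by
    rw [Finset.mem_erase] at hf
    exact abs_of_nonpos (tiltCov_nonpos hc hpos hst h he hf.2 (Ne.symm hf.1))
  rw [Finset.sum_congr rfl h1, Finset.sum_neg_distrib]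
  linarith [var_add_sum_cov_nonneg hc hpos hst h he]

end Crest.Agent.Lib.SRF
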